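import Vale.Agent.P280.H63Y.Fin2
import Vale.Agent.P280.H143.Transport

/-! P280, T7, helper641: assembly. From a maximal torus to an arbitrary torus with isolated fixed
points. -/

open DirectSum Vale.Agent.P280.T Vale.Agent.P280.H127

namespace Vale.Agent.P280.H641

open Vale.Agent.P280.N Vale.Agent.P280.N2.F Vale.Agent.P280.H11

section
variable {r : ℕ} {R : Type} [CommRing R] [IsDomain R] [Algebra ℂ R]
  {𝒜 : ℕ × (Fin r → ℤ) → Submodule ℂ R} [GradedAlgebra 𝒜]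

/-- A functional which is not zero at any weight. -/
theorem exists_nz (H : H63Y.Hyp 𝒜) : ∃ g : (Fin r → ℤ) →+ ℤ, ∀ ω, Wt 𝒜 ω → g ω ≠ 0 := by
  obtain ⟨g, hg⟩ := H587.exists_generic (S := H587.wts 𝒜) (finite_weights H.hX)
  refine ⟨g, ?_⟩
  rintro ω ⟨y, hy⟩ h0
  obtain ⟨h1, h2⟩ := H587.tangentWeight_mem H.hX y.nv y.fix hy
  have h3 : g (y.ν + ω) = g y.ν := by rw [map_add, h0, add_zero]
  have h4 := hg h2 h1 h3
  exact H63Y.c03_wt_ne_zero H ⟨y, hy⟩ (by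
    have : y.ν + ω = y.ν + 0 := by rw [h4, add_zero]
    exact add_left_cancel this)

/-- Vertices are not balanced. -/
theorem vx_no_opp (H : H63Y.Hyp 𝒜) {χ : Fin r → ℤ} (hχ : Vx 𝒜 χ) {z : FP 𝒜} (h1 : z.Pi χ)
    (h2 : z.Pi (-χ)) : False := by
  obtain ⟨hw, l, hl, hm⟩ := hχ
  obtain ⟨g, hg⟩ := exists_nz H
  obtain ⟨M, -, h3, h4, h5⟩ := H63Y.c03_perturb H hw hl hm g
  exact H63Y.no_opp_ext H (c := M • l + g) (fun μ hμ => h5 μ hμ (hg μ hμ)) h3 (fun ω hω => by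
    by_cases h : ω = χ
    · rw [h]
    · exact (h4 ω hω h).le) h1 h2

/-- For a maximal torus the vertices have multiplicity one. -/
theorem hyp_x (H : H63Y.Hyp 𝒜) : H63X.Hyp 𝒜 :=
  { hX := H.hX
    hN := H.hN
    iso := H.iso
    mult := fun y χ hvx hχ v v' hv hw hv' hw' => by
      have hiso : ∀ z : FP 𝒜, ¬ z.Pi 0 := fun z => H.iso z.q z.ν z.nv z.fix
      rcases H63X.mult_or_both H.hX hiso y hχ with h | ⟨z, j, j', hj, hj', h1, h2⟩
      · exact h v v' hv hw hv' hw'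
      · obtain ⟨h3, h4⟩ := H63X.vx_both H.hX hvx hj hj' h1 h2
        exact (vx_no_opp H hvx h3 h4).elim
    tor := H.tor }

/-- All the weights are liftable. -/
theorem liftable_of_lf (h : ∀ (z : FP 𝒜) (χ : Fin r → ℤ), z.Pi χ → H143.Lf 𝒜 z χ)
    (χ : Fin r → ℤ) : Liftable 𝒜 χ := by
  intro x ν hx0 hx hχ v hv hw
  obtain ⟨D, h1, h2⟩ := h ⟨x, ν, hx0, hx⟩ χ hχ v hv hw
  exact ⟨D, h1, h2⟩

end

section
variable {r : ℕ} {R : Type} [CommRing R] [Algebra ℂ R]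
  {𝒜 : ℕ × (Fin r → ℤ) → Submodule ℂ R} [GradedAlgebra 𝒜]

/-- The theorem for an arbitrary torus with isolated fixed points, over the lifting of the tangent
vectors at the fixed points of a maximal one. -/
theorem final_of
    (hI : ∀ (r' : ℕ) (_ : IsDomain R) (𝒜' : ℕ × (Fin r' → ℤ) → Submodule ℂ R)
      (_ : GradedAlgebra 𝒜'), H63X.Hyp 𝒜' → ∀ (z : FP 𝒜') (χ : Fin r' → ℤ), z.Pi χ →
        H143.Lf 𝒜' z χ)
    (hX : IsTorusManifold 𝒜) (hN : NefOnRationalCurves 𝒜)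
    (hiso : ∀ x ν, ¬ IsVertex 𝒜 x → IsFixed 𝒜 x ν → ¬ TangentWeight 𝒜 x ν 0) :
    (IsHomogeneousManifold 𝒜 ∧ IsTransitive 𝒜) ∧
    ∀ (x : R →ₐ[ℂ] ℂ) (ν χ : Fin r → ℤ), ¬ IsVertex 𝒜 x → IsFixed 𝒜 x ν →
      TangentWeight 𝒜 x ν χ → ∀ v : R →ₗ[ℂ] ℂ, IsTangent x v → HasWeight 𝒜 ν χ v →
        ∃ D : Derivation ℂ R R, (∀ d m, ∀ h ∈ 𝒜 (d, m), D h ∈ 𝒜 (d, m - χ)) ∧
          ∀ h : R, x (D h) = v h := by
  obtain ⟨r', 𝒜', hg, π, hr, ht⟩ := exists_maxTor hX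
  have hdom := hX.domain
  have hX' := ref_torusManifold hr hX
  have H0 : H63Y.Hyp 𝒜' :=
    { hX := hX'
      hN := ref_nef hr hN
      iso := fun x ν hx0 hx h => by
        have h3 := ref_weight hr h
        rw [map_zero] at h3
        exact hiso _ _ (fun h => hx0 ((ref_vertex hr).2 h)) (ref_fixed hr hx) h3
      tor := ht }
  have H := hyp_x H0
  have hL : ∀ χ' : Fin r' → ℤ, Liftable 𝒜' χ' := liftable_of_lf (hI r' hdom 𝒜' hg H)
  refine ⟨ref_back hr (full_of_liftable hX' H0.iso fun _ _ χ _ _ _ => hL χ), ?_⟩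
  intro x ν χ hx0 hx hχ v hv hw
  have hχ0 : χ ≠ 0 := by
    rintro rfl
    exact hiso x ν hx0 hx hχ
  exact H267.ref_liftable hr hX hX' hiso hχ0 (fun χ' _ => hL χ') x ν hx0 hx hχ v hv hw

end

end Vale.Agent.P280.H641
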