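import Vale.Agent.P280.H641.IntA
import Vale.Agent.P280.H641.Asm
import Vale.Agent.P280.H60.Fin

/-! P280, T7, helper641: the interior weights at the sources, and the theorem, over the open
modules. -/

open DirectSum Vale.Agent.P280.T Vale.Agent.P280.H127

namespace Vale.Agent.P280.H641

open Vale.Agent.P280.N Vale.Agent.P280.N.H989 Vale.Agent.P280.H63X Vale.Agent.P280.N2
open Vale.Agent.P280.H143 Vale.Agent.P280.H60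

section
variable {r : ℕ} {R : Type} [CommRing R] [IsDomain R] [Algebra ℂ R]

/-- Interior weights which are half a vertex, at the sources. -/
def HalfP (𝒜 : ℕ × (Fin r → ℤ) → Submodule ℂ R) : Prop :=
  ∀ c : (Fin r → ℤ) →+ ℤ, (∀ μ, Wt 𝒜 μ → c μ ≠ 0) → ∀ p : FP 𝒜, Pos c p →
    ∀ χ : Fin r → ℤ, Vx 𝒜 (2 • χ) → Lf 𝒜 p χ

/-- The component `A_3` with vector weights, at the sources. -/
def VecP (𝒜 : ℕ × (Fin r → ℤ) → Submodule ℂ R) : Prop :=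
  ∀ c : (Fin r → ℤ) →+ ℤ, (∀ μ, Wt 𝒜 μ → c μ ≠ 0) → ∀ p : FP 𝒜, Pos c p →
    ∀ (N : ℤ) (f : Fin (3 + 1) → Fin r → ℤ)
      (β : Fin (3 + 1) → Fin (3 + 1) → ((Fin r → ℤ) →+ ℤ))
      (E F : Fin (3 + 1) → Fin (3 + 1) → VF R), AC 𝒜 N 3 f β E F →
      (∃ i j, i ≠ j ∧ Wt 𝒜 (f i + f j)) → Lf 𝒜 p (-f (Fin.last 3))

variable {𝒜 : ℕ × (Fin r → ℤ) → Submodule ℂ R} [GradedAlgebra 𝒜]

/-- (Int). -/
theorem intP_of (H : H63X.Hyp 𝒜) (hC : H475T.Crit 𝒜) (hbad : BadP 𝒜)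
    (hhalf : HalfP 𝒜) (hvec : VecP 𝒜) : IntP 𝒜 := by
  intro c hc p hp χ hχ hB
  have hint : ∀ l : (Fin r → ℤ) →+ ℤ, 0 < l χ → ∃ ω, Wt 𝒜 ω ∧ l χ < l ω := by
    intro l hl
    by_contra hcon
    push Not at hcon
    exact hB ⟨l, hl, hcon⟩
  rcases exists_AC H ⟨p, hχ⟩ hint with h | ⟨N, n, f, β, E, F, hA, hl⟩
  · exact hhalf c hc p hp χ h
  · have e : χ = -f (Fin.last n) := by rw [hl, neg_neg]
    by_cases hv : NoVec 𝒜 n f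
    · rw [e]
      exact int_A H hC hbad hA hv hc hp _
    · unfold NoVec at hv
      push Not at hv
      obtain ⟨rfl, i, j, hij, hw⟩ := hv
      rw [e]
      exact hvec c hc p hp N f β E F hA ⟨i, j, hij, hw⟩

/-- All tangent vectors at all fixed points are liftable. -/
theorem all_lf (H : H63X.Hyp 𝒜) (hdat : CritData 𝒜) (hbad : BadP 𝒜) (hhalf : HalfP 𝒜)
    (hvec : VecP 𝒜) (z : FP 𝒜) (χ : Fin r → ℤ) : Lf 𝒜 z χ :=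
  H60.all_lf H hdat (intP_of H (crit_vx H hdat) hbad hhalf hvec) z χ

end

section
variable {r : ℕ} {R : Type} [CommRing R] [Algebra ℂ R]
  {𝒜 : ℕ × (Fin r → ℤ) → Submodule ℂ R} [GradedAlgebra 𝒜]

/-- **T7**, over the open modules. -/
theorem t7_of
    (hopen : ∀ (r' : ℕ) (_ : IsDomain R) (𝒜' : ℕ × (Fin r' → ℤ) → Submodule ℂ R)
      (_ : GradedAlgebra 𝒜'), H63X.Hyp 𝒜' → CritData 𝒜' ∧ BadP 𝒜' ∧ HalfP 𝒜' ∧ VecP 𝒜')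
    (hX : IsTorusManifold 𝒜) (hN : NefOnRationalCurves 𝒜)
    (hiso : ∀ x ν, ¬ IsVertex 𝒜 x → IsFixed 𝒜 x ν → ¬ TangentWeight 𝒜 x ν 0) :
    (IsHomogeneousManifold 𝒜 ∧ IsTransitive 𝒜) ∧
    ∀ (x : R →ₐ[ℂ] ℂ) (ν χ : Fin r → ℤ), ¬ IsVertex 𝒜 x → IsFixed 𝒜 x ν →
      TangentWeight 𝒜 x ν χ → ∀ v : R →ₗ[ℂ] ℂ, IsTangent x v → HasWeight 𝒜 ν χ v →
        ∃ D : Derivation ℂ R R, (∀ d m, ∀ h ∈ 𝒜 (d, m), D h ∈ 𝒜 (d, m - χ)) ∧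
          ∀ h : R, x (D h) = v h :=
  final_of (fun r' hd 𝒜' hg H z χ _ => by
    obtain ⟨h1, h2, h3, h4⟩ := hopen r' hd 𝒜' hg H
    exact all_lf H h1 h2 h3 h4 z χ) hX hN hiso

end

end Vale.Agent.P280.H641
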