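import Vale.Agent.P280.H641.Src
import Vale.Agent.P280.H309.HalfP
import Vale.Agent.P280.H475T.Fin
import Vale.Agent.P280.H706.VecP
import Vale.Agent.P280.H749.Crit

/-! P280, T7, helper641: the theorem. -/

open DirectSum Vale.Agent.P280.T Vale.Agent.P280.H127

namespace Vale.Agent.P280.H641

open Vale.Agent.P280.N Vale.Agent.P280.H60

variable {r : ℕ} {R : Type} [CommRing R] [Algebra ℂ R]
  {𝒜 : ℕ × (Fin r → ℤ) → Submodule ℂ R} [GradedAlgebra 𝒜]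

/-- **T7.** A projective manifold with nef tangent bundle and with a torus action with isolated
fixed points is homogeneous. -/
theorem t7 (hX : IsTorusManifold 𝒜) (hN : NefOnRationalCurves 𝒜)
    (hiso : ∀ x ν, ¬ IsVertex 𝒜 x → IsFixed 𝒜 x ν → ¬ TangentWeight 𝒜 x ν 0) :
    (IsHomogeneousManifold 𝒜 ∧ IsTransitive 𝒜) ∧
    ∀ (x : R →ₐ[ℂ] ℂ) (ν χ : Fin r → ℤ), ¬ IsVertex 𝒜 x → IsFixed 𝒜 x ν →
      TangentWeight 𝒜 x ν χ → ∀ v : R →ₗ[ℂ] ℂ, IsTangent x v → HasWeight 𝒜 ν χ v →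
        ∃ D : Derivation ℂ R R, (∀ d m, ∀ h ∈ 𝒜 (d, m), D h ∈ 𝒜 (d, m - χ)) ∧
          ∀ h : R, x (D h) = v h :=
  t7_of (fun _ _ _ _ H =>
    ⟨H749.crit_data H, H475T.badP_fin H, H309.halfP H (H749.crit_data H),
      H706.vecP H (H749.crit_data H)⟩) hX hN hiso

end Vale.Agent.P280.H641
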