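import Vale.Agent.P280.H989.AC
import Vale.Agent.P280.H143.Dir
import Vale.Agent.P280.H63X.CurveU
import Vale.Agent.P280.H63X.Dich

/-! P280, T7, helper641: the component of an interior weight, for a maximal torus with vertices of
multiplicity one. -/

open DirectSum Vale.Agent.P280.T Vale.Agent.P280.H127

namespace Vale.Agent.P280.H641

open Vale.Agent.P280.N Vale.Agent.P280.N.H989 Vale.Agent.P280.H63X

variable {r : ℕ} {R : Type} [CommRing R] [IsDomain R] [Algebra ℂ R]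
  {𝒜 : ℕ × (Fin r → ℤ) → Submodule ℂ R} [GradedAlgebra 𝒜]

/-- A curve in the direction of a tangent weight. -/
theorem exists_curve (H : H63X.Hyp 𝒜) (y : FP 𝒜) {a : Fin r → ℤ} (ha : y.Pi a) :
    ∃ (y' : FP 𝒜) (n : ℕ) (φ : R →ₐ[ℂ] Polynomial ℂ), Curve y y' a n φ := by
  have ha0 := ne_zero_of_pi H ha
  obtain ⟨t, ht, htw, ht0⟩ := ha
  obtain ⟨y', n, φ, hφ, -⟩ := H143.exists_curve_dir H y ha0 ht htw (by
    rintro rfl
    obtain ⟨d, m, h, hh, h1⟩ := ht0 0
    exact h1 (by simp))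
  exact ⟨y', n, φ, hφ⟩

/-- The negative of a weight is a weight. -/
theorem wt_neg (H : H63X.Hyp 𝒜) {μ : Fin r → ℤ} (hμ : Wt 𝒜 μ) : Wt 𝒜 (-μ) := by
  obtain ⟨y, hy⟩ := hμ
  obtain ⟨y', n, φ, hφ⟩ := exists_curve H y hy
  exact ⟨y', hφ.ya'⟩

/-- A weight of a point is found, up to multiples of `a`, at the other end of a curve. -/
theorem curve_wt (H : H63X.Hyp 𝒜) {y y' : FP 𝒜} {a : Fin r → ℤ} {n : ℕ}
    {φ : R →ₐ[ℂ] Polynomial ℂ} (hφ : Curve y y' a n φ) {μ : Fin r → ℤ}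
    (hμ : ∀ k : ℤ, μ ≠ k • a) (hp : y'.Pi μ) : ∃ k : ℕ, y.Pi (μ + (k : ℤ) • a) := by
  obtain ⟨t, ht, htw, ht0⟩ := hp
  obtain ⟨δ, hδ, hdeg, hval⟩ := H63X.exists_lift H hφ ht htw
  have hne : ∃ h, δ h ≠ 0 := by
    obtain ⟨d, m, h, hh, h1⟩ := ht0 0
    refine ⟨h, fun h0 => h1 ?_⟩
    rw [← hval d m h hh, h0]
    simp
  obtain ⟨k, -, -, -, hk⟩ := along_pi hφ.ev hδ
    (fun d m h hh h0 => by
      obtain ⟨i, -, h1, h2⟩ := hdeg d m h hh h0
      exact ⟨i, h1, h2⟩) hμ hne (j := 0) (fun h i hi => absurd hi (Nat.not_lt_zero i))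
  exact ⟨k, hk⟩

/-- Vertices are not balanced. -/
theorem vx_not_neg (H : H63X.Hyp 𝒜) {χ : Fin r → ℤ} (hχ : Vx 𝒜 χ) {y : FP 𝒜} (h1 : y.Pi χ) :
    ¬ y.Pi (-χ) := fun h2 =>
  H63X.no_opp H (sep_of_vx hχ) (fun z hz => H.mult z χ hχ hz) h1 h2

/-- The weights are stable under the reflections. -/
theorem reflect_wt (H : H63X.Hyp 𝒜) {N : ℤ} (hN : 0 < N) {χ : Fin r → ℤ} (hχ : Vx 𝒜 χ) {β : (Fin r → ℤ) →+ ℤ}
    {E F : VF R} (hr : Root 𝒜 N χ β E F) {μ : Fin r → ℤ} (hμ : Wt 𝒜 μ) (hβ : β μ = -N) :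
    Wt 𝒜 (μ + χ) := by
  obtain ⟨y, hy⟩ := hμ
  have hneg : β μ < 0 := by omega
  have key : ∀ y : FP 𝒜, ¬ y.Pi (-χ) → y.Pi μ → Wt 𝒜 (μ + χ) := fun y h1 h2 =>
    ⟨y, H63X.nef_string0 H hN (H155.toRoot0 hr) hr.int y h1 h2 hneg⟩
  by_cases hna : y.Pi (-χ)
  · obtain ⟨y1, m, φ, hφ⟩ := exists_curve H y hna
    obtain ⟨φ', hφ', -⟩ := H63X.exists_rev H hφ
    have hmul : ∀ k : ℤ, μ ≠ k • χ := by
      intro k hk
      have h1 : β μ = k * (2 * N) := by rw [hk, map_zsmul, hr.two, smul_eq_mul]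
      have h2 : (2 * k + 1) * N = 0 := by linear_combination -h1 + hβ
      rcases mul_eq_zero.1 h2 with h3 | h3 <;> omega
    obtain ⟨k, hk⟩ := curve_wt H hφ' (μ := μ) (fun k hk => hmul k (by simpa using hk)) hy
    rw [neg_neg] at hk
    have h1 : β (μ + (k : ℤ) • χ) = -N + k * (2 * N) := by
      rw [map_add, map_zsmul, hr.two, hβ, smul_eq_mul]
    have h2 := hr.bd _ ⟨y1, hk⟩
      (fun h => hmul (1 - k) ((eq_sub_of_add_eq h).trans (by rw [sub_smul, one_smul])))
      (fun h => hmul (-1 - k)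
        ((eq_sub_of_add_eq h).trans (by rw [sub_smul, neg_smul, one_smul])))
    rw [h1, abs_le] at h2
    have h3 : (k : ℤ) ≤ 1 := by nlinarith [h2.2]
    have h4 : k = 0 ∨ k = 1 := by omega
    have h5 : y1.Pi χ := by simpa using hφ.ya'
    rcases h4 with rfl | rfl
    · refine key y1 (vx_not_neg H hχ h5) ?_
      simpa using hk
    · exact ⟨y1, by simpa using hk⟩
  · exact key y hna hy

/-- The component of an interior weight which is not half a vertex. -/
theorem exists_AC (H : H63X.Hyp 𝒜) {lam : Fin r → ℤ} (hw : Wt 𝒜 lam)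
    (hint : ∀ l : (Fin r → ℤ) →+ ℤ, 0 < l lam → ∃ ω, Wt 𝒜 ω ∧ l lam < l ω) :
    Vx 𝒜 (2 • lam) ∨ ∃ (N : ℤ) (n : ℕ) (f : Fin (n + 1) → Fin r → ℤ)
      (β : Fin (n + 1) → Fin (n + 1) → ((Fin r → ℤ) →+ ℤ)) (E F : Fin (n + 1) → Fin (n + 1) → VF R),
      AC 𝒜 N n f β E F ∧ f (Fin.last n) = -lam := by
  by_cases hv2 : Vx 𝒜 (2 • lam)
  · exact Or.inl hv2
  right
  obtain ⟨N, b, E, F, hN, hr⟩ := H63X.exists_root_data H
  have hRS := H63X.exists_RS H hN hr
  have hlV : lam ∉ H63X.VV H := by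
    intro h
    obtain ⟨-, l, hl0, hl⟩ := (H63X.mem_VV H).1 h
    obtain ⟨ω, hω, hω1⟩ := hint l hl0
    by_cases hc : ω = lam
    · exact absurd hω1 (by rw [hc]; exact lt_irrefl _)
    · exact absurd (hl ω hω hc) (not_lt.2 hω1.le)
  obtain ⟨n, χ, c⟩ := exists_KS hRS (W := {ω | Wt 𝒜 ω}) hw hlV hint
  have h0 : lam ≠ 0 := H63X.c03_wt_ne_zero H hw
  have h1 := c.one_le h0
  have hvx : ∀ j, Vx 𝒜 (χ j) := fun j => (H63X.mem_VV H).1 (c.mem j)
  have hn2 : 2 ≤ n := by
    by_contra hcon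
    have hn : n = 1 := by omega
    subst hn
    have hs := c.sum_eq
    rw [Fin.sum_univ_one] at hs
    have h4 : χ 0 = lam + lam := by rw [← sub_eq_iff_eq_add]; exact hs
    apply hv2
    rw [two_nsmul, ← h4]
    exact hvx 0
  -- the letters
  obtain ⟨f, hf1, hf2⟩ : ∃ f : Fin (n + 1) → Fin r → ℤ, (∀ j : Fin n, f j.castSucc = χ j - lam) ∧
      f (Fin.last n) = -lam :=
    ⟨Fin.snoc (fun j => χ j - lam) (-lam), fun j => by simp [Fin.snoc_castSucc], by simp⟩
  obtain ⟨g, hg1, hg2⟩ : ∃ g : Fin (n + 1) → ((Fin r → ℤ) →+ ℤ),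
      (∀ j : Fin n, g j.castSucc = b (χ j)) ∧ g (Fin.last n) = 0 :=
    ⟨Fin.snoc (fun j => b (χ j)) 0, fun j => by simp [Fin.snoc_castSucc], by simp⟩
  have hd : ∀ i j : Fin n, f i.castSucc - f j.castSucc = χ i - χ j := fun i j => by
    rw [hf1, hf1]; abel
  have hdl : ∀ i : Fin n, f i.castSucc - f (Fin.last n) = χ i := fun i => by
    rw [hf1, hf2]; abel
  have hld : ∀ i : Fin n, f (Fin.last n) - f i.castSucc = -χ i := fun i => by
    rw [hf1, hf2]; abel
  have hvxf : ∀ i j, i ≠ j → Vx 𝒜 (f i - f j) := by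
    intro i j hij
    induction i using Fin.lastCases with
    | last =>
      induction j using Fin.lastCases with
      | last => exact absurd rfl hij
      | cast j => rw [hld]; exact H63X.c03_vx_neg H (hvx j)
    | cast i =>
      induction j using Fin.lastCases with
      | last => rw [hdl]; exact hvx i
      | cast j =>
        rw [hd]
        exact (H63X.mem_VV H).1 (c.diff_mem (fun h => hij (by rw [h])))
  have hval : ∀ i j, i ≠ j → ∀ μ, Wt 𝒜 μ → b (f i - f j) μ = g i μ - g j μ := by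
    intro i j hij μ hμ
    induction i using Fin.lastCases with
    | last =>
      induction j using Fin.lastCases with
      | last => exact absurd rfl hij
      | cast j =>
        rw [hld, hg2, hg1, hRS.neg_b (c.mem j) hμ, AddMonoidHom.zero_apply, zero_sub]
    | cast i =>
      induction j using Fin.lastCases with
      | last => rw [hdl, hg1, hg2, AddMonoidHom.zero_apply, sub_zero]
      | cast j =>
        rw [hd, c.diff_b (fun h => hij (by rw [h])) hμ, hg1, hg1]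
  have hlast : Wt 𝒜 (f (Fin.last n)) := by rw [hf2]; exact wt_neg H hw
  have hwt : ∀ i, Wt 𝒜 (f i) := by
    intro i
    induction i using Fin.lastCases with
    | last => exact hlast
    | cast i =>
      rw [hf1]
      have h2 := reflect_wt H hN (hvx i) (hr _ (hvx i)) (wt_neg H hw) (by rw [map_neg, c.bl])
      rwa [neg_add_eq_sub] at h2
  have hgf : ∀ i k, g i (f k) = (if k = i then N else 0) - (if k = Fin.last n then N else 0) := by
    intro i k
    induction i using Fin.lastCases with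
    | last => rw [hg2, AddMonoidHom.zero_apply, sub_self]
    | cast i =>
      rw [hg1]
      induction k using Fin.lastCases with
      | last =>
        rw [hf2, map_neg, c.bl, if_neg (Fin.castSucc_lt_last i).ne', if_pos rfl, zero_sub]
      | cast k =>
        rw [hf1, c.be, if_neg (Fin.castSucc_lt_last k).ne, sub_zero]
        simp only [Fin.castSucc_inj]
  refine ⟨N, n, f, fun i j => b (f i - f j), fun i j => E (f i - f j), fun i j => F (f i - f j),
    { N0 := hN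
      n2 := hn2
      sum := ?_
      wt := hwt
      wtn := fun i => wt_neg H (hwt i)
      vx := hvxf
      root := fun i j hij => hr _ (hvxf i j hij)
      be := fun i j k hij => by
        rw [hval i j hij _ (hwt k), hgf, hgf]
        ring
      anti := fun i j hij μ hμ => by
        rw [hval i j hij μ hμ, hval j i hij.symm μ hμ]
        ring
      add := fun i j k h1 h2 h3 μ hμ => by
        rw [hval i j h1 μ hμ, hval j k h2 μ hμ, hval i k h3 μ hμ]
        ring
      S := fun μ hμ => ?_ }, hf2⟩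
  · rw [Fin.sum_univ_castSucc, hf2]
    simp only [hf1]
    rw [c.sum_eq, add_neg_cancel]
  · rcases c.class_W hn2 hμ with h2 | ⟨j, h2 | h2⟩ | ⟨i, j, hij, h2⟩ | ⟨j, h2 | h2⟩ | h2 | h2 |
      ⟨hn, i, j, hij, h2 | h2⟩
    · refine Or.inl fun i j hij => ?_
      have h3 : ∀ i, g i μ = 0 := by
        intro i
        induction i using Fin.lastCases with
        | last => rw [hg2, AddMonoidHom.zero_apply]
        | cast i => rw [hg1, h2]
      rw [hval i j hij μ hμ, h3, h3, sub_zero]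
    · exact Or.inr (Or.inl ⟨_, _, (Fin.castSucc_lt_last j).ne, by rw [hdl, h2]⟩)
    · exact Or.inr (Or.inl ⟨_, _, (Fin.castSucc_lt_last j).ne', by rw [hld, h2]⟩)
    · exact Or.inr (Or.inl ⟨i.castSucc, j.castSucc, (Fin.castSucc_injective n).ne hij,
        by rw [hd, h2]⟩)
    · exact Or.inr (Or.inr (Or.inl ⟨j.castSucc, Or.inl (by rw [hf1, h2])⟩))
    · exact Or.inr (Or.inr (Or.inl ⟨j.castSucc, Or.inr (by rw [hf1, h2])⟩))
    · exact Or.inr (Or.inr (Or.inl ⟨Fin.last n, Or.inr (by rw [hf2, h2, neg_neg])⟩))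
    · exact Or.inr (Or.inr (Or.inl ⟨Fin.last n, Or.inl (by rw [hf2, h2])⟩))
    · exact Or.inr (Or.inr (Or.inr ⟨hn, i.castSucc, j.castSucc,
        (Fin.castSucc_injective n).ne hij, by rw [hf1, hf1, h2]⟩))
    · have hs : ∑ i, f i = 0 := by
        rw [Fin.sum_univ_castSucc, hf2]
        simp only [hf1]
        rw [c.sum_eq, add_neg_cancel]
      have h3 : μ = -(f i.castSucc + f j.castSucc) := by rw [hf1, hf1, h2]
      have h4 : ∀ (hn : n = 3), ∃ k l : Fin (n + 1), k ≠ l ∧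
          -(f i.castSucc + f j.castSucc) = f k + f l := by
        rintro rfl
        exact AC.four hs _ _ ((Fin.castSucc_injective 3).ne hij)
      obtain ⟨k, l, hkl, h5⟩ := h4 hn
      exact Or.inr (Or.inr (Or.inr ⟨hn, k, l, hkl, h3.trans h5⟩))

end Vale.Agent.P280.H641
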