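import Vale.Agent.P280.H143.F2
import Vale.Agent.P280.H641.AC
import Vale.Agent.P280.H60.Sgn

/-! P280, T7, helper641: crossing one wall. -/

open DirectSum Vale.Agent.P280.T Vale.Agent.P280.H127

set_option linter.unusedSectionVars false

namespace Vale.Agent.P280.H641

open Vale.Agent.P280.N Vale.Agent.P280.N.H989 Vale.Agent.P280.H63X Vale.Agent.P280.H143

variable {r : ℕ} {R : Type} [CommRing R] [IsDomain R] [Algebra ℂ R]
  {𝒜 : ℕ × (Fin r → ℤ) → Submodule ℂ R} [GradedAlgebra 𝒜]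

/-- The other end of a curve in a direction of value zero. -/
theorem pos_curve (H : H63X.Hyp 𝒜) {c : (Fin r → ℤ) →+ ℤ} {y y' : FP 𝒜} {a : Fin r → ℤ} {n : ℕ}
    (hnu : y'.ν = y.ν + n • a) (ha : c a = 0) (hy : Pos c y) : Pos c y' := by
  refine (low_iff H c y').1 fun d m h hh hne => ?_
  have h1 := (low_iff H c y).2 hy d m h hh hne
  rw [hnu, map_add, map_nsmul, ha, smul_zero, add_zero]
  exact h1

/-- Well-founded induction along a direction. -/
theorem up_ind (H : H63X.Hyp 𝒜) {w : Fin r → ℤ} (hw : w ≠ 0) {P : FP 𝒜 → Prop}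
    (h : ∀ y, (∀ y' : FP 𝒜, ∀ n : ℕ, 1 ≤ n → y'.ν = y.ν + n • w → P y') → P y) (y : FP 𝒜) :
    P y := by
  obtain ⟨i, hi⟩ : ∃ i, w i ≠ 0 := by
    by_contra hcon
    push Not at hcon
    exact hw (funext hcon)
  have hfin := finite_weights H.hX
  obtain ⟨M, hM⟩ := (hfin.image fun m => w i * m i).bddAbove
  have hb : ∀ z : FP 𝒜, w i * z.ν i ≤ M := fun z => hM ⟨_, nu_mem H z, rfl⟩
  have key : ∀ k : ℕ, ∀ z : FP 𝒜, M - w i * z.ν i ≤ k → P z := by
    intro k
    induction k with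
    | zero =>
      intro z hz
      refine h z fun y' n hn hy' => ?_
      exfalso
      have h1 := hb y'
      rw [hy', Pi.add_apply, Pi.smul_apply, nsmul_eq_mul] at h1
      have h2 : 0 < w i * w i := mul_self_pos.2 hi
      have h3 : (1 : ℤ) ≤ n := by exact_mod_cast hn
      have h4 : w i * (z.ν i + n * w i) = w i * z.ν i + n * (w i * w i) := by ring
      rw [h4] at h1
      push_cast at hz
      nlinarith
    | succ k ih =>
      intro z hz
      refine h z fun y' n hn hy' => ih y' ?_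
      rw [hy', Pi.add_apply, Pi.smul_apply, nsmul_eq_mul]
      have h2 : 0 < w i * w i := mul_self_pos.2 hi
      have h3 : (1 : ℤ) ≤ n := by exact_mod_cast hn
      have h4 : w i * (z.ν i + n * w i) = w i * z.ν i + n * (w i * w i) := by ring
      rw [h4]
      push_cast at hz
      nlinarith
  exact key (M - w i * y.ν i).toNat y (by
    have := hb y
    omega)

/-- **Crossing one wall without defect.** -/
theorem cross_w (H : H63X.Hyp 𝒜) {c : (Fin r → ℤ) →+ ℤ} {w χ : Fin r → ℤ} (hw : c w = 0)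
    (hw0 : w ≠ 0) (h0 : ∀ k : ℕ, χ - k • w ≠ 0) (hχ : ∀ k : ℕ, 1 ≤ k → ¬ Wt 𝒜 (χ - k • w))
    (hend : ∀ y, Pos c y → ¬ y.Pi w → Lf 𝒜 y χ) (y : FP 𝒜) (hy : Pos c y) : Lf 𝒜 y χ := by
  refine up_ind H hw0 (P := fun y => Pos c y → Lf 𝒜 y χ) ?_ y hy
  intro y ih hy
  by_cases hyw : y.Pi w
  · obtain ⟨y1, n, φ, hφ⟩ := exists_curve H y hyw
    obtain ⟨φ', hφ', -⟩ := H63X.exists_rev H hφ
    have h1 : Lf 𝒜 y1 χ := ih y1 n hφ.n1 hφ.nu (pos_curve H hφ.nu hw hy)
    have e : ∀ k : ℕ, χ + k • -w = χ - k • w := fun k => by rw [smul_neg, sub_eq_add_neg]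
    intro t ht htw
    obtain ⟨D, hD, cc, -, hcc, hh⟩ := transport H hφ' (χ := χ) (fun k => by rw [e]; exact h0 k) h1
      (E := fun _ => 0) (fun k d m x _ => Submodule.zero_mem _)
      (fun k hk hpi => absurd (⟨y1, by rw [← e]; exact hpi⟩ : Wt 𝒜 (χ - k • w)) (hχ k hk))
      (fun k hk hpi => absurd (⟨y1, by rw [← e]; exact hpi⟩ : Wt 𝒜 (χ - k • w))
        (hχ k (by omega))) ht htw
    refine ⟨D, hD, fun x => ?_⟩
    have h2 : y.q.toLinearMap.comp (D : R →ₗ[ℂ] R) = t := by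
      apply linearMap_ext_graded 𝒜
      rintro ⟨d, m⟩ h hm
      change y.q (D h) = t h
      rw [hh d m h hm, hcc (fun hpi => hχ 1 le_rfl (by
        have := e 1
        rw [one_smul] at this
        rw [← this]
        exact ⟨y1, hpi⟩)), zero_mul, add_zero]
    exact LinearMap.congr_fun h2 x
  · exact hend y hy hyw

/-- **Transport in the direction of a tangent vector** `τ` of weight `ψ` at `z`, with one defect. -/
theorem tr_dir (H : H63X.Hyp 𝒜) (z : FP 𝒜) {ψ : Fin r → ℤ} (hψ : ψ ≠ 0)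
    {τ : R →ₗ[ℂ] ℂ} (hτ : IsTangent z.q τ) (hτw : HasWeight 𝒜 z.ν ψ τ) (hτ0 : τ ≠ 0)
    {χ : Fin r → ℤ} (h0 : ∀ k : ℕ, χ - k • ψ ≠ 0) {Ev : Derivation ℂ R R}
    (hE : H93.IsHField 𝒜 (χ - ψ) Ev) (hv : Vx 𝒜 (χ - ψ))
    (hEv : ∀ y : FP 𝒜, y.Pi (χ - ψ) → ∃ x, y.q (Ev x) ≠ 0)
    (h2 : ∀ k : ℕ, 2 ≤ k → ¬ Wt 𝒜 (χ - k • ψ))
    (hgen : ∀ (y : FP 𝒜) (n : ℕ), 1 ≤ n → y.ν = z.ν + n • ψ → y.Pi (-ψ) → Lf 𝒜 y χ)
    {t : R →ₗ[ℂ] ℂ} (ht : IsTangent z.q t) (htw : HasWeight 𝒜 z.ν χ t) :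
    ∃ D : Derivation ℂ R R, H93.IsHField 𝒜 χ D ∧ ∃ c : ℂ, ((∃ x, z.q (Ev x) ≠ 0) → c = 0) ∧
      ∀ x, t x = z.q (D x) + c * τ (Ev x) := by
  obtain ⟨y, n, φ, hφ, κ, hκ, hc⟩ := exists_curve_dir' H z hψ hτ hτw hτ0
  have hnu : y.ν = z.ν + n • ψ := by
    rw [hφ.nu, smul_neg]; abel
  have e : ∀ k : ℕ, χ + k • -ψ = χ - k • ψ := fun k => by rw [smul_neg, sub_eq_add_neg]
  obtain ⟨D, hD, cc, hc1, -, hh⟩ := transport H hφ (χ := χ) (fun k => by rw [e]; exact h0 k)
    (hgen y n hφ.n1 hnu hφ.ya)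
    (E := fun k => if k = 1 then Ev else 0)
    (fun k => by
      by_cases hk : k = 1
      · subst hk
        simp only [if_true]
        rw [e, one_smul]
        exact hE
      · simp only [if_neg hk]
        intro d m x _
        exact Submodule.zero_mem _)
    (fun k hk hpi t' ht' htw' => by
      rcases Nat.lt_or_ge k 2 with hk2 | hk2
      · obtain rfl : k = 1 := by omega
        rw [e, one_smul] at hpi htw'
        obtain ⟨x0, hx0⟩ := hEv y hpi
        obtain ⟨a, b, hab, hrel⟩ := H.mult y _ hv hpi t'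
          (y.q.toLinearMap.comp (Ev : R →ₗ[ℂ] R)) ht' htw' (H224.isTangent_value y.q Ev)
          (H224.hasWeight_value y.fix hE)
        have ha : a ≠ 0 := by
          intro ha
          have hb : b ≠ 0 := by tauto
          have h3 := hrel x0
          rw [ha, zero_mul, zero_add] at h3
          exact hx0 ((mul_eq_zero.1 h3).resolve_left hb)
        refine ⟨-b / a, fun x => ?_⟩
        have h3 := hrel x
        simp only [if_true]
        change a * t' x + b * y.q (Ev x) = 0 at h3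
        field_simp
        linear_combination h3
      · exact absurd (⟨y, by rw [← e]; exact hpi⟩ : Wt 𝒜 (χ - k • ψ)) (h2 k hk2))
    (fun k hk hpi => absurd (⟨y, by rw [← e]; exact hpi⟩ : Wt 𝒜 (χ - k • ψ)) (h2 k hk)) ht htw
  simp only [if_true] at hc1 hh
  refine ⟨D, hD, cc * κ, fun h3 => by rw [hc1 h3, zero_mul], ?_⟩
  have h3 : t = z.q.toLinearMap.comp (D : R →ₗ[ℂ] R) + (cc * κ) • τ.comp (Ev : R →ₗ[ℂ] R) := by
    apply linearMap_ext_graded 𝒜
    rintro ⟨d, m⟩ h hm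
    change t h = z.q (D h) + (cc * κ) * τ (Ev h)
    rw [hh d m h hm]
    rcases Nat.eq_zero_or_pos d with hd | hd
    · subst hd
      obtain ⟨e, he⟩ := H.hX.zero m h hm
      rw [he, Derivation.map_algebraMap, Derivation.map_algebraMap, map_zero, map_zero,
        Polynomial.coeff_zero, map_zero, mul_zero, mul_zero]
    · rw [hc d _ hd _ (hE d m h hm)]
      ring
  exact fun x => LinearMap.congr_fun h3 x

/-- **The defect disappears if the multiplicity of the direction is at least two.** -/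
theorem lf_of_defect (z : FP 𝒜) {ψ χ : Fin r → ℤ} {Ev : Derivation ℂ R R}
    (hone : ¬ H60.One 𝒜 z ψ)
    (hdef : ∀ τ : R →ₗ[ℂ] ℂ, IsTangent z.q τ → HasWeight 𝒜 z.ν ψ τ → τ ≠ 0 →
      ∀ t : R →ₗ[ℂ] ℂ, IsTangent z.q t → HasWeight 𝒜 z.ν χ t →
      ∃ D : Derivation ℂ R R, H93.IsHField 𝒜 χ D ∧ ∃ c : ℂ,
        ∀ x, t x = z.q (D x) + c * τ (Ev x)) : Lf 𝒜 z χ := by
  unfold H60.One at hone
  push Not at hone
  obtain ⟨v, v', hv, hvw, hv', hvw', hind⟩ := hone
  have hcomb : ∀ a b : ℂ, (a ≠ 0 ∨ b ≠ 0) → a • v + b • v' ≠ 0 := by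
    intro a b hab h0
    obtain ⟨h, hh⟩ := hind a b hab
    apply hh
    have := LinearMap.congr_fun h0 h
    simpa using this
  have hv0 : v ≠ 0 := by
    have := hcomb 1 0 (Or.inl one_ne_zero)
    simpa using this
  have hv0' : v' ≠ 0 := by
    have := hcomb 0 1 (Or.inr one_ne_zero)
    simpa using this
  intro t ht htw
  obtain ⟨D1, hD1, c1, h1⟩ := hdef v hv hvw hv0 t ht htw
  obtain ⟨D2, hD2, c2, h2⟩ := hdef v' hv' hvw' hv0' t ht htw
  by_cases hc1 : c1 = 0
  · refine ⟨D1, hD1, fun x => ?_⟩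
    rw [h1, hc1, zero_mul, add_zero]
  have htan : IsTangent z.q (c1 • v + (-c2) • v') := by
    intro x y
    simp only [LinearMap.add_apply, LinearMap.smul_apply, smul_eq_mul]
    rw [hv x y, hv' x y]
    ring
  have hwt : HasWeight 𝒜 z.ν ψ (c1 • v + (-c2) • v') := by
    intro d m h hh hne
    by_cases h3 : v h = 0
    · have h4 : v' h ≠ 0 := by
        intro h4
        apply hne
        simp [h3, h4]
      exact hvw' d m h hh h4
    · exact hvw d m h hh h3
  obtain ⟨D3, hD3, c3, h3⟩ := hdef _ htan hwt (hcomb _ _ (Or.inl hc1)) t ht htw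
  refine ⟨D3 + c3 • (D2 - D1), ?_, fun x => ?_⟩
  · intro d m h hh
    rw [Derivation.add_apply, Derivation.smul_apply, Derivation.sub_apply]
    exact Submodule.add_mem _ (hD3 d m h hh) (Submodule.smul_mem _ _
      (Submodule.sub_mem _ (hD2 d m h hh) (hD1 d m h hh)))
  · have h4 := h1 x
    have h5 := h2 x
    have h6 := h3 x
    simp only [LinearMap.add_apply, LinearMap.smul_apply, smul_eq_mul] at h6
    rw [Derivation.add_apply, Derivation.smul_apply, Derivation.sub_apply, map_add, map_smul,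
      map_sub, smul_eq_mul]
    rw [h6]
    linear_combination c3 * h4 - c3 * h5

end Vale.Agent.P280.H641
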