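import Vale.Agent.P280.H641.IntF
import Vale.Agent.P280.H641.IntW
import Vale.Agent.P280.H143.Up
import Vale.Agent.P280.H60.Lem
import Vale.Agent.P280.H63X.Along

/-! P280, T7, helper641: interior weights, component of type `A_n`, `n ≥ 2`, no vector weights:
all sources. -/

open DirectSum Vale.Agent.P280.T Vale.Agent.P280.H127

set_option linter.unusedSectionVars false

namespace Vale.Agent.P280.H641

open Vale.Agent.P280.N Vale.Agent.P280.N.H989 Vale.Agent.P280.H63X Vale.Agent.P280.N2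
open Vale.Agent.P280.H143 Vale.Agent.P280.H60

variable {r : ℕ} {R : Type} [CommRing R] [IsDomain R] [Algebra ℂ R]
  {𝒜 : ℕ × (Fin r → ℤ) → Submodule ℂ R} [GradedAlgebra 𝒜]

/-- The bad end (helper475). -/
def BadP (𝒜 : ℕ × (Fin r → ℤ) → Submodule ℂ R) : Prop :=
  ∀ (N : ℤ) (n : ℕ) (f : Fin (n + 1) → Fin r → ℤ)
    (β : Fin (n + 1) → Fin (n + 1) → ((Fin r → ℤ) →+ ℤ)) (E F : Fin (n + 1) → Fin (n + 1) → VF R),
    AC 𝒜 N n f β E F → NoVec 𝒜 n f → ∀ c' : (Fin r → ℤ) →+ ℤ, Ch2 𝒜 n f c' →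
    ∀ p' : FP 𝒜, Pos c' p' → ∀ (z : FP 𝒜) (m : ℕ) (φ : R →ₐ[ℂ] Polynomial ℂ),
    Curve p' z (f 1) m φ → z.Pi (-f 1) → One 𝒜 z (-f 1) →
    (∀ ψ, z.Pi ψ → ψ ≠ -f 1 → 0 < c' ψ) → ¬ z.Pi (f 1 - f (Fin.last n)) →
    z.Pi (-f (Fin.last n)) → Lf 𝒜 z (-f (Fin.last n))

/-- If the direction `-a` has multiplicity one at the upper end, it is no tangent weight at the
lower end. -/
theorem not_pi_lower (H : H63X.Hyp 𝒜) {y z : FP 𝒜} {a : Fin r → ℤ} {n : ℕ}
    {φ : R →ₐ[ℂ] Polynomial ℂ} (hφ : Curve z y a n φ)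
    (hno : ∀ k : ℕ, k ≠ 0 → ¬ z.Pi (a + (k : ℤ) • a)) (hm : One 𝒜 z a) : ¬ y.Pi a := by
  rintro ⟨t, ht, htw, ht0⟩
  obtain ⟨δ, hδ, hdeg, htop⟩ := H63X.exists_lift H hφ ht htw
  obtain ⟨c, hc⟩ := der_dir H hφ hδ (fun d m h hh hne => by
    obtain ⟨i, -, h1, h2⟩ := hdeg d m h hh hne
    exact ⟨i, h1, h2⟩) hno hm
  obtain ⟨d, m, h, hh, h1⟩ := ht0 0
  apply h1
  rw [← htop d m h hh, hc, zero_mul, zero_mul, Polynomial.coeff_C_mul]
  obtain ⟨i, hi, -, e, he⟩ := H490.form hφ hh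
  rw [he, Polynomial.derivative_C_mul_X_pow, Polynomial.coeff_C_mul_X_pow]
  by_cases h2 : d * n = i - 1
  · have h3 : i = 0 := by omega
    rw [if_pos h2, h3]
    simp
  · rw [if_neg h2, mul_zero]

/-- The derivations of a root. -/
theorem rt_of_root {N : ℤ} {χ : Fin r → ℤ} {β : (Fin r → ℤ) →+ ℤ} {E F : VF R}
    (hr : Root 𝒜 N χ β E F) : ∃ (α : ℂ) (E' F' : Derivation ℂ R R),
      Rt 𝒜 N χ β α E' F' ∧ toVF E' = E ∧ toVF F' = F := by
  obtain ⟨E', rfl⟩ := Glob.exists_der hr.globE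
  obtain ⟨F', rfl⟩ := Glob.exists_der hr.globF
  obtain ⟨al, hal⟩ := hr.br
  refine ⟨al, E', F', ⟨hr.hvE.isHField, hr.hvF.isHField, hr.two, fun d m h hh => ?_⟩, rfl, rfl⟩
  have h2 := hal d m h hh
  rw [← toVF_lie, toVF_iK, ← iK_smul, ← iK_neg] at h2
  have h3 := iK_inj h2
  rwa [Derivation.commutator_apply] at h3

section
variable {N : ℤ} {n : ℕ} {f : Fin (n + 1) → Fin r → ℤ}
  {β : Fin (n + 1) → Fin (n + 1) → ((Fin r → ℤ) →+ ℤ)} {E F : Fin (n + 1) → Fin (n + 1) → VF R}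
  {c : (Fin r → ℤ) →+ ℤ}

/-- Two letters. -/
theorem two_letters (i j : Fin (n + 1)) (u v : ℤ) (hij : i ≠ j) :
    ∑ k, ((if k = i then u else 0) + (if k = j then v else 0)) • f k = u • f i + v • f j := by
  have h1 : ∀ k, ((if k = i then u else 0) + (if k = j then v else 0)) • f k =
      (if k = i then u • f k else 0) + (if k = j then v • f k else 0) := by
    intro k
    rw [add_smul]
    split_ifs <;> simp
  rw [Finset.sum_congr rfl fun k _ => h1 k, Finset.sum_add_distrib, Finset.sum_ite_eq',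
    Finset.sum_ite_eq', if_pos (Finset.mem_univ _), if_pos (Finset.mem_univ _)]

/-- Indicators at distinct places. -/
theorem ind3 {i j l : Fin (n + 1)} (hij : i ≠ j) (hil : i ≠ l) (hjl : j ≠ l) (a : Fin (n + 1)) :
    (0 : ℤ) ≤ (if i = a then 1 else 0) ∧ (0 : ℤ) ≤ (if j = a then 1 else 0) ∧
      (0 : ℤ) ≤ (if l = a then 1 else 0) ∧
      ((if i = a then 1 else 0) + (if j = a then 1 else 0) + (if l = a then 1 else 0) : ℤ) ≤ 1 := by
  by_cases h1 : i = a
  · subst h1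
    rw [if_pos rfl, if_neg hij.symm, if_neg hil.symm]
    norm_num
  by_cases h2 : j = a
  · subst h2
    rw [if_pos rfl, if_neg h1, if_neg hjl.symm]
    norm_num
  rw [if_neg h1, if_neg h2]
  split_ifs <;> norm_num

theorem ind4 {i j l l' : Fin (n + 1)} (hij : i ≠ j) (hil : i ≠ l) (hjl : j ≠ l) (hil' : i ≠ l')
    (hjl' : j ≠ l') (hll : l ≠ l') (a : Fin (n + 1)) :
    (0 : ℤ) ≤ (if i = a then 1 else 0) ∧ (0 : ℤ) ≤ (if j = a then 1 else 0) ∧
      (0 : ℤ) ≤ (if l = a then 1 else 0) ∧ (0 : ℤ) ≤ (if l' = a then 1 else 0) ∧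
      ((if i = a then 1 else 0) + (if j = a then 1 else 0) + (if l = a then 1 else 0) +
        (if l' = a then 1 else 0) : ℤ) ≤ 1 := by
  by_cases h1 : l' = a
  · subst h1
    rw [if_pos rfl, if_neg hil', if_neg hjl', if_neg hll]
    norm_num
  · obtain ⟨e1, e2, e3, e4⟩ := ind3 hij hil hjl a
    rw [if_neg h1]
    exact ⟨e1, e2, e3, le_rfl, by rw [add_zero]; exact e4⟩

/-- `- f_L + k f_1`, `k ≥ 2`, is no weight. -/
theorem no_wt_up (hA : AC 𝒜 N n f β E F) (hv : NoVec 𝒜 n f) {i j : Fin (n + 1)} (hij : i ≠ j)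
    {k : ℤ} (hk : 2 ≤ k) : ¬ Wt 𝒜 (k • f i + (-1 : ℤ) • f j) := by
  intro hw
  rw [← two_letters i j k (-1) hij] at hw
  obtain ⟨m, hm⟩ := coord hA hv hw
  have key : ∀ P : Fin (n + 1) → ℤ, (∀ k', ((if k' = i then k else 0) +
      (if k' = j then (-1 : ℤ) else 0)) = P k') → P i = k ∧ P j = -1 := by
    intro P hP
    rw [← hP i, ← hP j, if_pos rfl, if_pos rfl, if_neg hij, if_neg hij.symm]
    simp
  rcases hm with hm | ⟨a, b, hab, hm⟩ | ⟨a, hm⟩ | ⟨a, hm⟩
  · obtain ⟨h1, h2⟩ := key _ hm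
    omega
  · obtain ⟨h1, h2⟩ := key _ hm
    split_ifs at h1 h2 <;> omega
  · obtain ⟨h1, h2⟩ := key _ hm
    split_ifs at h1 h2 <;> omega
  · obtain ⟨h1, h2⟩ := key _ hm
    split_ifs at h1 h2 <;> omega

/-- Multiples of a letter. -/
theorem no_wt_mul (hA : AC 𝒜 N n f β E F) (hv : NoVec 𝒜 n f) (i : Fin (n + 1))
    {k : ℤ} (hk : 2 ≤ k) : ¬ Wt 𝒜 (k • f i) := by
  intro hw
  have hn := hA.n2
  obtain ⟨j, j', hji, hji', hjj⟩ : ∃ j j' : Fin (n + 1), j ≠ i ∧ j' ≠ i ∧ j ≠ j' := by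
    have h1 : ({i}ᶜ : Finset (Fin (n + 1))).card = n := by
      rw [Finset.card_compl, Fintype.card_fin, Finset.card_singleton]
      omega
    obtain ⟨j, hj, j', hj', h2⟩ := Finset.one_lt_card.1 (by rw [h1]; omega :
      1 < ({i}ᶜ : Finset (Fin (n + 1))).card)
    exact ⟨j, j', by simpa using hj, by simpa using hj', h2⟩
  have e : k • f i = k • f i + (0 : ℤ) • f j := by rw [zero_smul, add_zero]
  rw [e, ← two_letters i j k 0 hji.symm] at hw
  obtain ⟨m, hm⟩ := coord hA hv hw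
  have key : ∀ P : Fin (n + 1) → ℤ, (∀ k', ((if k' = i then k else 0) +
      (if k' = j then (0 : ℤ) else 0)) = P k') → P i = k ∧ P j = 0 ∧ P j' = 0 := by
    intro P hP
    rw [← hP i, ← hP j, ← hP j', if_pos rfl, if_pos rfl, if_neg hji.symm, if_neg hji, if_neg hji']
    simp
  rcases hm with hm | ⟨a, b, hab, hm⟩ | ⟨a, hm⟩ | ⟨a, hm⟩
  · obtain ⟨h1, h2, h3⟩ := key _ hm
    omega
  · obtain ⟨h1, h2, h3⟩ := key _ hm
    obtain ⟨a1, a2, a3, a4⟩ := ind3 hji.symm hji'.symm hjj a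
    obtain ⟨b1, b2, b3, b4⟩ := ind3 hji.symm hji'.symm hjj b
    omega
  · obtain ⟨h1, h2, h3⟩ := key _ hm
    obtain ⟨a1, a2, a3, a4⟩ := ind3 hji.symm hji'.symm hjj a
    omega
  · obtain ⟨h1, h2, h3⟩ := key _ hm
    obtain ⟨a1, a2, a3, a4⟩ := ind3 hji.symm hji'.symm hjj a
    omega

/-- `- f_L - k f_i` is no weight if `n ≥ 3`. -/
theorem no_wt_down (hA : AC 𝒜 N n f β E F) (hv : NoVec 𝒜 n f) (h3n : 3 ≤ n) {i j : Fin (n + 1)}
    (hij : i ≠ j) {k : ℤ} (hk : 1 ≤ k) : ¬ Wt 𝒜 ((-k) • f i + (-1 : ℤ) • f j) := by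
  intro hw
  obtain ⟨l, l', hl, hl', hll, hlj, hlj'⟩ : ∃ l l' : Fin (n + 1), l ≠ i ∧ l' ≠ i ∧ l ≠ l' ∧
      l ≠ j ∧ l' ≠ j := by
    have h1 : ({i, j}ᶜ : Finset (Fin (n + 1))).card = n - 1 := by
      rw [Finset.card_compl, Fintype.card_fin, Finset.card_pair hij]
      omega
    obtain ⟨l, hl, l', hl', h2⟩ := Finset.one_lt_card.1 (by rw [h1]; omega :
      1 < ({i, j}ᶜ : Finset (Fin (n + 1))).card)
    simp only [Finset.mem_compl, Finset.mem_insert, Finset.mem_singleton, not_or] at hl hl'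
    exact ⟨l, l', hl.1, hl'.1, h2, hl.2, hl'.2⟩
  rw [← two_letters i j _ _ hij] at hw
  obtain ⟨m, hm⟩ := coord hA hv hw
  have key : ∀ P : Fin (n + 1) → ℤ, (∀ k', ((if k' = i then -k else 0) +
      (if k' = j then (-1 : ℤ) else 0)) = P k') → P i = -k ∧ P j = -1 ∧ P l = 0 ∧ P l' = 0 := by
    intro P hP
    rw [← hP i, ← hP j, ← hP l, ← hP l', if_pos rfl, if_pos rfl, if_neg hij, if_neg hij.symm,
      if_neg hl, if_neg hlj, if_neg hl', if_neg hlj']
    simp
  rcases hm with hm | ⟨a, b, hab, hm⟩ | ⟨a, hm⟩ | ⟨a, hm⟩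
  · obtain ⟨h1, h2, h3, h4⟩ := key _ hm
    omega
  · obtain ⟨h1, h2, h3, h4⟩ := key _ hm
    obtain ⟨a1, a2, a3, a4, a5⟩ := ind4 hij hl.symm hlj.symm hl'.symm hlj'.symm hll a
    obtain ⟨b1, b2, b3, b4, b5⟩ := ind4 hij hl.symm hlj.symm hl'.symm hlj'.symm hll b
    omega
  · obtain ⟨h1, h2, h3, h4⟩ := key _ hm
    obtain ⟨a1, a2, a3, a4, a5⟩ := ind4 hij hl.symm hlj.symm hl'.symm hlj'.symm hll a
    omega
  · obtain ⟨h1, h2, h3, h4⟩ := key _ hm
    obtain ⟨a1, a2, a3, a4, a5⟩ := ind4 hij hl.symm hlj.symm hl'.symm hlj'.symm hll a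
    omega

/-- The last letter is negative if the order is decreasing. -/
theorem c_last (hA : AC 𝒜 N n f β E F)
    (hord : ∀ i j : Fin (n + 1), i < j → c (f j) < c (f i)) : c (f (Fin.last n)) < 0 := by
  have hn := hA.n2
  have hs : ∑ i, c (f i) = 0 := by rw [← map_sum, hA.sum, map_zero]
  by_contra hcon
  push Not at hcon
  have h1 : 0 < ∑ i, c (f i) := by
    refine Finset.sum_pos' (fun i _ => ?_) ⟨0, Finset.mem_univ _, ?_⟩
    · rcases eq_or_ne i (Fin.last n) with h | h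
      · rw [h]; exact hcon
      · have h2 : i < Fin.last n := Fin.lt_last_iff_ne_last.2 h
        have := hord i _ h2
        omega
    · have := hord 0 (Fin.last n) (by rw [Fin.lt_def, Fin.val_last]; exact lt_of_lt_of_le (by decide : (0:ℕ) < 2) hn)
      omega
  omega

theorem int_sorted (H : H63X.Hyp 𝒜) (hC : H475T.Crit 𝒜) (hbad : BadP 𝒜)
    (hA : AC 𝒜 N n f β E F) (hv : NoVec 𝒜 n f) (hc : ∀ μ, Wt 𝒜 μ → c μ ≠ 0)
    (hord : ∀ i j : Fin (n + 1), i < j → c (f j) < c (f i)) {p : FP 𝒜} (hp : Pos c p) :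
    Lf 𝒜 p (-f (Fin.last n)) := by
  have hn := hA.n2
  have hN := hA.N0
  have v1 := one_val hn
  have v0 : ((0 : Fin (n + 1)) : ℕ) = 0 := rfl
  have vL : ((Fin.last n : Fin (n + 1)) : ℕ) = n := rfl
  have n01 : (0 : Fin (n + 1)) ≠ 1 := fun h => by rw [Fin.ext_iff] at h; omega
  have n0L : (0 : Fin (n + 1)) ≠ Fin.last n := fun h => by rw [Fin.ext_iff] at h; omega
  have n1L : (1 : Fin (n + 1)) ≠ Fin.last n := fun h => by rw [Fin.ext_iff] at h; omega
  obtain ⟨φ, hφ, hφc⟩ := exists_phi hA hv hc hord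
  have hcL := c_last hA hord
  have hχ0 : -f (Fin.last n) ≠ 0 := H63X.c03_wt_ne_zero H (hA.wtn _)
  refine cross_up H hχ0 (φ := φ) hc ?_ ?_ p hp
  · intro z w hw hcw hφw hpos
    rcases hφc w ⟨z, hw⟩ hcw hφw with ⟨i, hi, rfl⟩ | rfl
    · -- no defect
      left
      intro k hk
      have hiL : i ≠ Fin.last n := by
        rintro rfl
        omega
      have h3n : 3 ≤ n := by
        have := Fin.val_lt_last hiL
        omega
      have e : -f (Fin.last n) + k • -f i = (-(k : ℤ)) • f i + (-1 : ℤ) • f (Fin.last n) := by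
        rw [smul_neg, neg_smul, neg_smul, one_smul, natCast_zsmul]
        abel
      constructor
      · intro h0
        obtain ⟨j, hji, hjL⟩ : ∃ j : Fin (n + 1), j ≠ i ∧ j ≠ Fin.last n := by
          rcases eq_or_ne i 0 with h | h
          · exact ⟨1, by rw [h]; exact n01.symm, n1L⟩
          · exact ⟨0, h.symm, n0L⟩
        have h1 := congrArg (β (Fin.last n) j) h0
        rw [map_add, map_nsmul, map_neg, map_neg, be_self hA hjL.symm,
          be_oth hA hjL.symm hiL hji.symm, map_zero, neg_zero, smul_zero, add_zero] at h1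
        omega
      · rw [e]
        exact no_wt_down hA hv h3n hiL (by exact_mod_cast hk)
    · -- the direction `- f 1`
      have hc1 : c (f 1) < 0 := by
        rw [map_neg] at hcw
        omega
      have hv1 : Vx 𝒜 (-f (Fin.last n) - -f 1) := by
        have := hA.vx 1 _ n1L
        rwa [show f 1 - f (Fin.last n) = -f (Fin.last n) - -f 1 by abel] at this
      have e1 : -f (Fin.last n) - -f 1 = f 1 - f (Fin.last n) := by abel
      have h2k : ∀ k : ℕ, 2 ≤ k → -f (Fin.last n) + k • -(-f 1) ≠ 0 ∧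
          ¬ Wt 𝒜 (-f (Fin.last n) + k • -(-f 1)) := by
        intro k hk
        have e : -f (Fin.last n) + k • -(-f 1) = (k : ℤ) • f 1 + (-1 : ℤ) • f (Fin.last n) := by
          rw [neg_neg, neg_smul, one_smul, natCast_zsmul]
          abel
        constructor
        · intro h0
          have h1 := congrArg (β 1 (Fin.last n)) h0
          rw [neg_neg, map_add, map_nsmul, map_neg, be_self hA n1L, be_snd hA n1L, map_zero,
            nsmul_eq_mul] at h1
          have h3 : (0 : ℤ) ≤ (k : ℤ) * N := by positivity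
          omega
        · rw [e]
          exact no_wt_up hA hv n1L (by exact_mod_cast hk)
      by_cases hz : z.Pi (-f (Fin.last n) - -f 1)
      · exact Or.inr (Or.inl ⟨hv1, h2k, Or.inl hz⟩)
      by_cases hone : One 𝒜 z (-f 1)
      · right; right
        by_cases hL : z.Pi (-f (Fin.last n))
        · obtain ⟨y, m, ψ, hψ⟩ := exists_curve H z hw
          obtain ⟨ψ', hψ', -⟩ := H63X.exists_rev H hψ
          rw [neg_neg] at hψ'
          have hlw : ((-φ (-f 1)) • c + (c (-f 1)) • φ) (-f 1) = 0 := by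
            rw [AddMonoidHom.add_apply, AddMonoidHom.zsmul_apply, AddMonoidHom.zsmul_apply,
              smul_eq_mul, smul_eq_mul]
            ring
          have hny : ¬ y.Pi (-f 1) := by
            refine not_pi_lower H hψ (fun k hk hpi => ?_) hone
            have e : -f 1 + (k : ℤ) • -f 1 = -(((k : ℤ) + 1) • f 1) := by
              rw [add_smul, one_smul, smul_neg]
              abel
            rw [e] at hpi
            have h1 := wt_neg H ⟨z, hpi⟩
            rw [neg_neg] at h1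
            exact no_wt_mul hA hv 1 (by omega) h1
          have hposy := pos_curve H hψ.nu hlw hpos
          -- signs
          have sgn : ∀ x : FP 𝒜, Pos ((-φ (-f 1)) • c + (c (-f 1)) • φ) x → ∀ ω, x.Pi ω →
              ω ≠ -f 1 → 0 < φ ω := by
            intro x hx ω hω hne
            by_contra hcon
            have h1 : φ ω < 0 := lt_of_le_of_ne (not_lt.1 hcon) (hφ.ne ω ⟨x, hω⟩)
            rcases lt_or_gt_of_ne (hc ω ⟨x, hω⟩) with h2 | h2
            · have h3 := hx ω hω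
              rw [AddMonoidHom.add_apply, AddMonoidHom.zsmul_apply, AddMonoidHom.zsmul_apply,
                smul_eq_mul, smul_eq_mul] at h3
              have h4 := mul_neg_of_pos_of_neg (neg_pos.2 hφw) h2
              have h5 := mul_neg_of_pos_of_neg hcw h1
              omega
            · rcases hφc ω ⟨x, hω⟩ h2 h1 with ⟨i, hi, rfl⟩ | h3
              · have h4 : (1 : Fin (n + 1)) < i := by
                  rw [Fin.lt_def]
                  omega
                have := hord 1 i h4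
                omega
              · exact hne h3
          refine hbad N n f β E F hA hv φ hφ y (fun ω hω => ?_) z m ψ' hψ' hw hone
            (sgn z hpos) (by rwa [← e1]) hL
          exact (sgn y hposy ω hω (fun h => hny (by rwa [← h]))).le
        · exact lf_of_not_pi z hL
      · exact Or.inr (Or.inl ⟨hv1, h2k, Or.inr hone⟩)
  · intro q hq
    refine base H hC hA hv hφ (fun ψ hψ => ?_)
    rcases hq ψ hψ with h | ⟨h, -⟩
    · exact h.le
    · exact h.ge

/-- **(Int) for `A_n`, `n ≥ 2`, without vector weights.** -/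
theorem int_A (H : H63X.Hyp 𝒜) (hC : H475T.Crit 𝒜) (hbad : BadP 𝒜)
    (hA : AC 𝒜 N n f β E F) (hv : NoVec 𝒜 n f) (hc : ∀ μ, Wt 𝒜 μ → c μ ≠ 0)
    {p : FP 𝒜} (hp : Pos c p) (L : Fin (n + 1)) : Lf 𝒜 p (-f L) := by
  have hN := hA.N0
  have hinj : ∀ i j, i ≠ j → c (f i) ≠ c (f j) := by
    intro i j hij h
    have h1 := hc _ (hA.vx i j hij).1
    rw [map_sub, h, sub_self] at h1
    exact h1 rfl
  set g : Fin (n + 1) → ℤ := fun i => -c (f i) with hg
  set σ := Tuple.sort g with hσ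
  have hmono : Monotone (g ∘ σ) := Tuple.monotone_sort g
  have hord : ∀ i j : Fin (n + 1), i < j → c (f (σ j)) < c (f (σ i)) := by
    intro i j hij
    have h1 := hmono hij.le
    simp only [hg, Function.comp_apply] at h1
    have h2 := hinj (σ i) (σ j) (σ.injective.ne hij.ne)
    omega
  have hlast := int_sorted H hC hbad (hA.perm σ)
    (fun h3 i j hij => hv h3 _ _ (σ.injective.ne hij)) hc hord hp
  by_cases hL : L = σ (Fin.last n)
  · rw [hL]
    exact hlast
  · have hlt : c (f (σ (Fin.last n))) < c (f L) := by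
      obtain ⟨i, rfl⟩ := σ.surjective L
      exact hord i _ (Fin.lt_last_iff_ne_last.2 fun h => hL (by rw [h]))
    obtain ⟨α, E', F', hR, -, -⟩ := rt_of_root (hA.root L (σ (Fin.last n)) hL)
    have hvx := hA.vx L (σ (Fin.last n)) hL
    have hne : -(f L - f (σ (Fin.last n))) ≠ 0 :=
      neg_ne_zero.2 (H63X.c03_wt_ne_zero H hvx.1)
    refine lf_exch H hN hR p (val_zero p hne hR.hF fun h => ?_) (ω := -f L) ?_ ?_ ?_
    · have h1 := hp _ h
      rw [map_neg, map_sub] at h1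
      omega
    · rw [map_neg, be_self hA hL]
      exact Dvd.dvd.neg_right (dvd_refl N)
    · rw [map_neg, be_self hA hL]
      omega
    · have e : -f L + (f L - f (σ (Fin.last n))) = -f (σ (Fin.last n)) := by abel
      rw [e]
      exact hlast

end

end Vale.Agent.P280.H641
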