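import Vale.Agent.P280.H641.AC
import Vale.Agent.P280.N2.Rel
import Vale.Agent.P280.H60.Sgn
import Vale.Agent.P280.H475T.Crit

/-! P280, T7, helper641: interior weights, component of type `A_n`, `n ≥ 2`, no vector weights:
the base chamber. -/

open DirectSum Vale.Agent.P280.T Vale.Agent.P280.H127

set_option linter.unusedSectionVars false

namespace Vale.Agent.P280.H641

open Vale.Agent.P280.N Vale.Agent.P280.N.H989 Vale.Agent.P280.H63X Vale.Agent.P280.N2
open Vale.Agent.P280.H143

variable {r : ℕ} {R : Type} [CommRing R] [IsDomain R] [Algebra ℂ R]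
  {𝒜 : ℕ × (Fin r → ℤ) → Submodule ℂ R} [GradedAlgebra 𝒜]

section
variable {N : ℤ} {n : ℕ} {f : Fin (n + 1) → Fin r → ℤ}
  {β : Fin (n + 1) → Fin (n + 1) → ((Fin r → ℤ) →+ ℤ)} {E F : Fin (n + 1) → Fin (n + 1) → VF R}
  {c : (Fin r → ℤ) →+ ℤ}

/-- The strings. -/
theorem str (H : H63X.Hyp 𝒜) (hA : AC 𝒜 N n f β E F) {i j : Fin (n + 1)} (hij : i ≠ j)
    {y : FP 𝒜} (h : ¬ y.Pi (f j - f i)) {χ : Fin r → ℤ} (hχ : y.Pi χ) (hβ : β i j χ < 0) :
    y.Pi (χ + (f i - f j)) :=
  H63X.nef_string0 H hA.N0 (H155.toRoot0 (hA.root i j hij)) (hA.root i j hij).int y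
    (by rwa [neg_sub]) hχ hβ

/-- Values on the letters. -/
theorem be_self (hA : AC 𝒜 N n f β E F) {i j : Fin (n + 1)} (hij : i ≠ j) : β i j (f i) = N := by
  rw [hA.be i j i hij, if_pos rfl, if_neg hij, sub_zero]

theorem be_snd (hA : AC 𝒜 N n f β E F) {i j : Fin (n + 1)} (hij : i ≠ j) :
    β i j (f j) = -N := by
  rw [hA.be i j j hij, if_pos rfl, if_neg hij.symm, zero_sub]

theorem be_oth (hA : AC 𝒜 N n f β E F) {i j k : Fin (n + 1)} (hij : i ≠ j) (hki : k ≠ i)
    (hkj : k ≠ j) : β i j (f k) = 0 := by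
  rw [hA.be i j k hij, if_neg hki, if_neg hkj, sub_zero]

theorem base (H : H63X.Hyp 𝒜) (hC : H475T.Crit 𝒜) (hA : AC 𝒜 N n f β E F) (hv : NoVec 𝒜 n f)
    (hc : Ch2 𝒜 n f c) {p : FP 𝒜} (hp : Pos c p) : Lf 𝒜 p (-f (Fin.last n)) := by
  have hn := hA.n2
  have hN := hA.N0
  have v1 := one_val hn
  have v0 : ((0 : Fin (n + 1)) : ℕ) = 0 := rfl
  have vL : ((Fin.last n : Fin (n + 1)) : ℕ) = n := rfl
  have n01 : (0 : Fin (n + 1)) ≠ 1 := fun h => by rw [Fin.ext_iff] at h; omega
  have n0L : (0 : Fin (n + 1)) ≠ Fin.last n := fun h => by rw [Fin.ext_iff] at h; omega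
  have n1L : (1 : Fin (n + 1)) ≠ Fin.last n := fun h => by rw [Fin.ext_iff] at h; omega
  have c01 := hc.ord 0 1 (by rw [Fin.lt_def]; omega)
  have c1 := hc.pos
  have c0 : 0 < c (f 0) := c1.trans c01
  refine hC c hc.ne p hp _ 2 (fun j => if j = 0 then f 0 - f (Fin.last n) else
    f 1 - f (Fin.last n)) ?_ ?_ ?_ ?_ ?_
  · intro i j hij
    fin_cases i <;> fin_cases j
    · rfl
    · exfalso
      have h1 := congrArg (β 0 1) hij
      simp only [map_sub, Fin.zero_eta, if_true, Fin.mk_one, one_ne_zero, if_false] at h1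
      rw [be_self hA n01, be_snd hA n01] at h1
      omega
    · exfalso
      have h1 := congrArg (β 0 1) hij
      simp only [map_sub, Fin.zero_eta, if_true, Fin.mk_one, one_ne_zero, if_false] at h1
      rw [be_self hA n01, be_snd hA n01] at h1
      omega
    · rfl
  · intro j
    split_ifs
    · exact hA.vx _ _ n0L
    · exact hA.vx _ _ n1L
  · intro j
    split_ifs
    · rw [map_sub, map_neg]; omega
    · rw [map_sub, map_neg]; omega
  · intro y b hb hcb hoth om hom k M hk hM hs
    have hbw : Wt 𝒜 b := by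
      have := wt_neg H ⟨y, hb⟩
      rwa [neg_neg] at this
    have hW : ∀ ω ∈ List.replicate k b ++ M, Wt 𝒜 ω ∧ 0 < c ω := by
      intro ω hω
      rcases List.mem_append.1 hω with h | h
      · rw [List.eq_of_mem_replicate h]
        exact ⟨hbw, hcb⟩
      · exact ⟨⟨y, (hM ω h).1⟩, (hM ω h).2⟩
    have hne : List.replicate k b ++ M ≠ [] := by
      intro h
      have h1 := (List.append_eq_nil_iff.1 h).1
      obtain ⟨l, rfl⟩ : ∃ l, k = l + 1 := ⟨k - 1, by omega⟩
      simp [List.replicate_succ] at h1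
    rcases rel_list hA hv hc hW hne (Or.inr ⟨y, hom⟩)
      (by rw [hs, List.sum_append, List.sum_replicate, add_assoc]) with ⟨h1, -⟩ | ⟨h1, -⟩
    · exact ⟨0, by simpa using h1⟩
    · exact ⟨1, by simpa using h1⟩
  · intro z d0 d1 h0 h1 hc0 hc1 hoth j hj k0 k1 M hk0 hk1 hM hs
    have hw : ∀ d : Fin r → ℤ, z.Pi (-d) → Wt 𝒜 d := fun d hd => by
      have := wt_neg H ⟨z, hd⟩
      rwa [neg_neg] at this
    have hW : ∀ ω ∈ List.replicate k0 d0 ++ (List.replicate k1 d1 ++ M), Wt 𝒜 ω ∧ 0 < c ω := by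
      intro ω hω
      rcases List.mem_append.1 hω with h | h
      · rw [List.eq_of_mem_replicate h]
        exact ⟨hw _ h0, hc0⟩
      rcases List.mem_append.1 h with h | h
      · rw [List.eq_of_mem_replicate h]
        exact ⟨hw _ h1, hc1⟩
      · exact ⟨⟨z, (hM ω h).1⟩, (hM ω h).2⟩
    have hsum : (List.replicate k0 d0 ++ (List.replicate k1 d1 ++ M)).sum =
        k0 • d0 + (k1 • d1 + M.sum) := by
      rw [List.sum_append, List.sum_append, List.sum_replicate, List.sum_replicate]
    have hlen : 2 ≤ (List.replicate k0 d0 ++ (List.replicate k1 d1 ++ M)).length := by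
      simp only [List.length_append, List.length_replicate]
      omega
    have hz0 : ∀ a : Fin r → ℤ, z.Pi a → c a < 0 → a = -d0 ∨ a = -d1 := by
      intro a ha hca
      by_contra hcon
      push Not at hcon
      have := hoth a ha hcon.1 hcon.2
      omega
    -- the weight
    obtain ⟨i, hi, hji, hjw⟩ : ∃ i : Fin (n + 1), (i = 0 ∨ i = 1) ∧
        (k0 • d0 + (k1 • d1 + M.sum) = f i) ∧ ¬ z.Pi (f i - f (Fin.last n)) := by
      by_cases h : j = 0
      · rw [if_pos h] at hs hj
        refine ⟨0, Or.inl rfl, ?_, hj⟩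
        have h2 : k0 • d0 + (k1 • d1 + M.sum) = f 0 - f (Fin.last n) + f (Fin.last n) := by
          rw [hs]; abel
        rw [h2]; abel
      · rw [if_neg h] at hs hj
        refine ⟨1, Or.inr rfl, ?_, hj⟩
        have h2 : k0 • d0 + (k1 • d1 + M.sum) = f 1 - f (Fin.last n) + f (Fin.last n) := by
          rw [hs]; abel
        rw [h2]; abel
    rw [← hsum] at hji
    have hcase := rel_sum hA hv hc hW hi hji
    have hi0 : i = 0 ∧ ((d0 = f 1 ∧ d1 = f 0 - f 1) ∨ (d0 = f 0 - f 1 ∧ d1 = f 1)) := by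
      obtain ⟨l0, rfl⟩ : ∃ l, k0 = l + 1 := ⟨k0 - 1, by omega⟩
      obtain ⟨l1, rfl⟩ : ∃ l, k1 = l + 1 := ⟨k1 - 1, by omega⟩
      rcases hcase with h | ⟨h0, h | h⟩
      · rw [h] at hlen
        simp at hlen
      · refine ⟨h0, Or.inl ?_⟩
        rw [List.replicate_succ, List.cons_append, List.cons.injEq] at h
        refine ⟨h.1, ?_⟩
        have hd1 : d1 ∈ [f 0 - f 1] := by
          rw [← h.2]
          simp [List.replicate_succ]
        simpa using hd1
      · refine ⟨h0, Or.inr ?_⟩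
        rw [List.replicate_succ, List.cons_append, List.cons.injEq] at h
        refine ⟨h.1, ?_⟩
        have hd1 : d1 ∈ [f 1] := by
          rw [← h.2]
          simp [List.replicate_succ]
        simpa using hd1
    obtain ⟨rfl, hd⟩ := hi0
    have hz1 : z.Pi (-f 1) := by
      rcases hd with ⟨rfl, -⟩ | ⟨-, rfl⟩
      · exact h0
      · exact h1
    have hz2 : z.Pi (f 1 - f 0) := by
      rcases hd with ⟨-, rfl⟩ | ⟨rfl, -⟩
      · rwa [neg_sub] at h1
      · rwa [neg_sub] at h0
    have hz3 : ∀ a : Fin r → ℤ, z.Pi a → c a < 0 → a = -f 1 ∨ a = f 1 - f 0 := by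
      intro a ha hca
      rcases hz0 a ha hca with h | h
      · rcases hd with ⟨rfl, -⟩ | ⟨rfl, -⟩
        · exact Or.inl h
        · right; rw [h]; abel
      · rcases hd with ⟨-, rfl⟩ | ⟨-, rfl⟩
        · right; rw [h]; abel
        · exact Or.inl h
    have cL : c (f (Fin.last n)) < 0 := hc.neg _ (by omega)
    have b01 := be_self hA n01
    have b01' := be_snd hA n01
    have b01L := be_oth hA n01 n0L.symm n1L.symm
    have g1 : ¬ z.Pi (f (Fin.last n) - f 0) := by
      intro h
      rcases hz3 _ h (by rw [map_sub]; omega) with h2 | h2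
      · have h3 := congrArg (β 0 1) h2
        rw [map_sub, map_neg, b01, b01', b01L] at h3
        omega
      · have h3 := congrArg (β 0 1) h2
        rw [map_sub, map_sub, b01, b01', b01L] at h3
        omega
    have g2 : z.Pi (f 1 - f (Fin.last n)) := by
      have h := str H hA n0L g1 hz2 (by
        rw [map_sub, be_oth hA n0L n01.symm n1L, be_self hA n0L]; omega)
      have e : f 1 - f 0 + (f 0 - f (Fin.last n)) = f 1 - f (Fin.last n) := by abel
      rwa [e] at h
    have g3 : ¬ z.Pi (f (Fin.last n) - f 1) := by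
      have h := vx_not_neg H (hA.vx 1 _ n1L) g2
      rwa [neg_sub] at h
    have g4 : z.Pi (-f (Fin.last n)) := by
      have h := str H hA n1L g3 hz1 (by rw [map_neg, be_self hA n1L]; omega)
      have e : -f 1 + (f 1 - f (Fin.last n)) = -f (Fin.last n) := by abel
      rwa [e] at h
    have g5 : z.Pi (-f 0) := by
      have h := str H hA n0L.symm hjw g4 (by
        rw [map_neg, be_self hA n0L.symm]; omega)
      have e : -f (Fin.last n) + (f (Fin.last n) - f 0) = -f 0 := by abel
      rwa [e] at h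
    rcases hz3 _ g5 (by rw [map_neg]; omega) with h2 | h2
    · have h3 := congrArg (β 0 1) h2
      rw [map_neg, map_neg, b01, b01'] at h3
      omega
    · have h3 := congrArg (β 0 1) h2
      rw [map_neg, map_sub, b01, b01'] at h3
      omega

end

end Vale.Agent.P280.H641
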