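import Vale.Agent.P280.H641.IntBase
import Vale.Agent.P280.N2.ExCh2

/-! P280, T7, helper641: functionals and weights of the component. -/

open DirectSum Vale.Agent.P280.T Vale.Agent.P280.H127

set_option linter.unusedSectionVars false

namespace Vale.Agent.P280.H641

open Vale.Agent.P280.N Vale.Agent.P280.N.H989 Vale.Agent.P280.H63X Vale.Agent.P280.N2
open Vale.Agent.P280.H143

variable {r : ℕ} {R : Type} [CommRing R] [IsDomain R] [Algebra ℂ R]
  {𝒜 : ℕ × (Fin r → ℤ) → Submodule ℂ R} [GradedAlgebra 𝒜]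
variable {N : ℤ} {n : ℕ} {f : Fin (n + 1) → Fin r → ℤ}
  {β : Fin (n + 1) → Fin (n + 1) → ((Fin r → ℤ) →+ ℤ)} {E F : Fin (n + 1) → Fin (n + 1) → VF R}
  {c : (Fin r → ℤ) →+ ℤ}

/-- The functional with prescribed values on the letters, proportional to `c` elsewhere. -/
theorem exists_fun (hA : AC 𝒜 N n f β E F) (c : (Fin r → ℤ) →+ ℤ) (t : Fin (n + 1) → ℤ)
    (ht : ∑ i, t i = 0) : ∃ d : (Fin r → ℤ) →+ ℤ, (∀ k, d (f k) = ((n : ℤ) + 1) * N * t k) ∧
      ∀ μ, Nul β μ → d μ = ((n : ℤ) + 1) * N * c μ := by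
  have hs : ∑ i, c (f i) = 0 := by rw [← map_sum, hA.sum, map_zero]
  have hnul : ∀ (T : Fin (n + 1) → ℤ) μ, Nul β μ → gT β T μ = 0 := by
    intro T μ hμ
    rw [gT, AddMonoidHom.finsetSum_apply]
    simp only [AddMonoidHom.finsetSum_apply]
    refine Finset.sum_eq_zero fun i _ => Finset.sum_eq_zero fun j _ => ?_
    by_cases hij : i = j
    · rw [if_pos hij, AddMonoidHom.zero_apply]
    · rw [if_neg hij, AddMonoidHom.zsmul_apply, hμ i j hij, smul_zero]
  refine ⟨(((n : ℤ) + 1) * N) • c - gT β (fun i => c (f i)) + gT β t, fun k => ?_, fun μ hμ => ?_⟩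
  · rw [AddMonoidHom.add_apply, AddMonoidHom.sub_apply, AddMonoidHom.zsmul_apply, gT_f hA, gT_f hA,
      hs, ht, smul_eq_mul]
    ring
  · rw [AddMonoidHom.add_apply, AddMonoidHom.sub_apply, AddMonoidHom.zsmul_apply, hnul _ μ hμ,
      hnul _ μ hμ, smul_eq_mul, sub_zero, add_zero]

/-- The functional of the base chamber, with the order of `c`. -/
theorem exists_phi (hA : AC 𝒜 N n f β E F) (hv : NoVec 𝒜 n f) (hc : ∀ μ, Wt 𝒜 μ → c μ ≠ 0)
    (hord : ∀ i j : Fin (n + 1), i < j → c (f j) < c (f i)) :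
    ∃ φ : (Fin r → ℤ) →+ ℤ, Ch2 𝒜 n f φ ∧
      ∀ μ, Wt 𝒜 μ → 0 < c μ → φ μ < 0 → (∃ i : Fin (n + 1), 2 ≤ (i : ℕ) ∧ μ = f i) ∨ μ = -f 1 := by
  classical
  have hn := hA.n2
  have hN := hA.N0
  have v1 := one_val hn
  have v0 : ((0 : Fin (n + 1)) : ℕ) = 0 := rfl
  have n01 : (0 : Fin (n + 1)) ≠ 1 := fun h => by rw [Fin.ext_iff] at h; omega
  set S : ℤ := ∑ i : Fin (n + 1), (if 2 ≤ (i : ℕ) then ((i : ℕ) : ℤ) else 0) with hS
  have hS2 : 2 ≤ S := by
    have h1 : (if 2 ≤ ((⟨2, by omega⟩ : Fin (n + 1)) : ℕ) then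
        (((⟨2, by omega⟩ : Fin (n + 1)) : ℕ) : ℤ) else 0) ≤ S :=
      Finset.single_le_sum (f := fun i : Fin (n + 1) => if 2 ≤ (i : ℕ) then ((i : ℕ) : ℤ) else 0)
        (fun i _ => by split_ifs <;> positivity) (Finset.mem_univ _)
    simpa using h1
  set t : Fin (n + 1) → ℤ := fun i => if i = 0 then S + 1 else if i = 1 then S - 1 else
    -2 * ((i : ℕ) : ℤ) with ht
  have t0 : t 0 = S + 1 := by rw [ht]; simp
  have t1 : t 1 = S - 1 := by rw [ht]; simp [n01.symm]
  have t2 : ∀ i : Fin (n + 1), 2 ≤ (i : ℕ) → t i = -2 * ((i : ℕ) : ℤ) := by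
    intro i hi
    have h0 : i ≠ 0 := fun h => by rw [Fin.ext_iff] at h; omega
    have h1 : i ≠ 1 := fun h => by rw [Fin.ext_iff] at h; omega
    simp only [ht, if_neg h0, if_neg h1]
  have tri : ∀ k : Fin (n + 1), k = 0 ∨ k = 1 ∨ 2 ≤ (k : ℕ) := by
    intro k
    by_cases h1 : k = 0
    · exact Or.inl h1
    by_cases h2 : k = 1
    · exact Or.inr (Or.inl h2)
    refine Or.inr (Or.inr ?_)
    rw [Fin.ext_iff] at h1 h2
    omega
  have hsum : ∑ i, t i = 0 := by
    have h1 : ∀ i : Fin (n + 1), t i = (if i = 0 then S + 1 else 0) + (if i = 1 then S - 1 else 0) +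
        -2 * (if 2 ≤ (i : ℕ) then ((i : ℕ) : ℤ) else 0) := by
      intro i
      rcases tri i with h | h | h
      · subst h
        rw [t0, if_pos rfl, if_neg n01, v0, if_neg (by omega)]
        ring
      · subst h
        rw [t1, if_neg n01.symm, if_pos rfl, v1, if_neg (by omega)]
        ring
      · have h0 : i ≠ 0 := fun h => by rw [Fin.ext_iff] at h; omega
        have h1 : i ≠ 1 := fun h => by rw [Fin.ext_iff] at h; omega
        rw [t2 i h, if_neg h0, if_neg h1, if_pos h]
        ring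
    rw [Finset.sum_congr rfl fun i _ => h1 i, Finset.sum_add_distrib, Finset.sum_add_distrib,
      ← Finset.mul_sum, Finset.sum_ite_eq', Finset.sum_ite_eq', if_pos (Finset.mem_univ _),
      if_pos (Finset.mem_univ _), ← hS]
    ring
  have tord : ∀ i j : Fin (n + 1), i < j → t j < t i := by
    intro i j hij
    have hij' : (i : ℕ) < j := hij
    rcases tri i with h | h | h <;> rcases tri j with h' | h' | h'
    · subst h h'; omega
    · subst h h'; rw [t0, t1]; omega
    · subst h; rw [t0, t2 j h']; omega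
    · subst h h'; omega
    · subst h h'; omega
    · subst h; rw [t1, t2 j h']; omega
    · subst h'; omega
    · subst h'; omega
    · rw [t2 i h, t2 j h']; omega
  have tpos : 0 < t 1 := by rw [t1]; omega
  have tneg : ∀ i : Fin (n + 1), 2 ≤ (i : ℕ) → t i < 0 := by
    intro i hi
    rw [t2 i hi]
    omega
  have tpos0 : 0 < t 0 := by rw [t0]; omega
  obtain ⟨φ, hφ, hφ0⟩ := exists_fun hA c t hsum
  have hnn : 0 < ((n : ℤ) + 1) * N := mul_pos (by positivity) hN
  have hφpos : ∀ k, 0 < t k → 0 < φ (f k) := fun k hk => by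
    rw [hφ]
    exact mul_pos hnn hk
  have hφneg : ∀ k, t k < 0 → φ (f k) < 0 := fun k hk => by
    rw [hφ]
    exact mul_neg_of_pos_of_neg hnn hk
  have hφord : ∀ i j : Fin (n + 1), i < j → φ (f j) < φ (f i) := fun i j hij => by
    rw [hφ, hφ]
    exact mul_lt_mul_of_pos_left (tord i j hij) hnn
  refine ⟨φ, ⟨?_, hφord, hφpos 1 tpos, fun j hj => hφneg j (tneg j hj)⟩, ?_⟩
  · intro μ hμ
    have hf : ∀ i, φ (f i) ≠ 0 := by
      intro i
      rcases tri i with h | h | h
      · subst h; exact (hφpos 0 tpos0).ne'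
      · subst h; exact (hφpos 1 tpos).ne'
      · exact (hφneg i (tneg i h)).ne
    rcases hA.S μ hμ with h1 | ⟨i, j, hij, rfl⟩ | ⟨i, rfl | rfl⟩ | ⟨h3, i, j, hij, rfl⟩
    · rw [hφ0 μ h1]
      exact mul_ne_zero hnn.ne' (hc μ hμ)
    · rw [map_sub]
      rcases lt_or_gt_of_ne hij with h | h
      · have := hφord i j h
        omega
      · have := hφord j i h
        omega
    · exact hf i
    · rw [map_neg]
      exact neg_ne_zero.2 (hf i)
    · exact absurd hμ (hv h3 i j hij)
  · intro μ hμ hcμ hφμ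
    have cs : ∑ i, c (f i) = 0 := by rw [← map_sum, hA.sum, map_zero]
    have c0 : 0 < c (f 0) := by
      by_contra hcon
      have h1 : ∑ i, c (f i) < 0 := by
        refine Finset.sum_neg' (fun i _ => ?_) ⟨1, Finset.mem_univ _, ?_⟩
        · rcases eq_or_ne i 0 with h | h
          · rw [h]; omega
          · have h2 : (0 : Fin (n + 1)) < i := by
              rw [Fin.lt_def]
              rw [Ne, Fin.ext_iff] at h
              omega
            have := hord 0 i h2
            omega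
        · have := hord 0 1 (by rw [Fin.lt_def]; omega)
          omega
      omega
    rcases hA.S μ hμ with h1 | ⟨i, j, hij, rfl⟩ | ⟨i, rfl | rfl⟩ | ⟨h3, i, j, hij, rfl⟩
    · exfalso
      rw [hφ0 μ h1] at hφμ
      have := mul_pos hnn hcμ
      omega
    · exfalso
      rw [map_sub] at hcμ hφμ
      rcases lt_or_gt_of_ne hij with h | h
      · have := hφord i j h
        omega
      · have := hord j i h
        omega
    · rcases tri i with h | h | h
      · subst h
        have := hφpos 0 tpos0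
        omega
      · subst h
        have := hφpos 1 tpos
        omega
      · exact Or.inl ⟨i, h, rfl⟩
    · rw [map_neg] at hcμ hφμ
      rcases tri i with h | h | h
      · subst h
        omega
      · subst h
        exact Or.inr rfl
      · have := hφneg i (tneg i h)
        omega
    · exact absurd hμ (hv h3 i j hij)

/-- The coordinates of the weights. -/
theorem coord (hA : AC 𝒜 N n f β E F) (hv : NoVec 𝒜 n f) {x : Fin (n + 1) → ℤ}
    (hμ : Wt 𝒜 (∑ k, x k • f k)) : ∃ m : ℤ, (∀ k, x k = m) ∨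
      (∃ a b, a ≠ b ∧ ∀ k, x k = m + (if k = a then 1 else 0) - (if k = b then 1 else 0)) ∨
      (∃ a, ∀ k, x k = m + (if k = a then 1 else 0)) ∨
      (∃ a, ∀ k, x k = m - (if k = a then 1 else 0)) := by
  classical
  have hn := hA.n2
  have hN := hA.N0
  have hb : ∀ i j, i ≠ j → β i j (∑ k, x k • f k) = N * (x i - x j) := by
    intro i j hij
    rw [map_sum]
    have h1 : ∀ k, β i j (x k • f k) = (if k = i then N * x k else 0) -
        (if k = j then N * x k else 0) := by
      intro k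
      rw [map_zsmul, hA.be i j k hij, smul_eq_mul]
      split_ifs <;> ring
    rw [Finset.sum_congr rfl fun k _ => h1 k, Finset.sum_sub_distrib, Finset.sum_ite_eq',
      Finset.sum_ite_eq', if_pos (Finset.mem_univ _), if_pos (Finset.mem_univ _)]
    ring
  have canc : ∀ {u v : ℤ}, N * u = N * v → u = v := fun h => mul_left_cancel₀ hN.ne' h
  rcases hA.S _ hμ with h1 | ⟨a, b, hab, h1⟩ | ⟨a, h1 | h1⟩ | ⟨h3, i, j, hij, h1⟩
  · refine ⟨x 0, Or.inl fun k => ?_⟩
    by_cases hk : k = 0
    · rw [hk]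
    · have h2 := hb k 0 hk
      rw [h1 k 0 hk] at h2
      have h3 : x k - x 0 = 0 := canc (by rw [← h2, mul_zero])
      omega
  · refine ⟨x a - 1, Or.inr (Or.inl ⟨a, b, hab, fun k => ?_⟩)⟩
    by_cases hka : k = a
    · subst hka
      rw [if_pos rfl, if_neg hab]
      ring
    · have h2 := hb k a hka
      rw [h1, map_sub, hA.be k a _ hka, hA.be k a _ hka] at h2
      have h3 : N * (x k - x a) = N * (-1 - (if k = b then 1 else 0)) := by
        rw [← h2, if_neg (Ne.symm hka), if_pos rfl, if_neg hab.symm]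
        by_cases hkb : b = k
        · rw [if_pos hkb, if_pos hkb.symm]; ring
        · rw [if_neg hkb, if_neg (Ne.symm hkb)]; ring
      have h4 := canc h3
      rw [if_neg hka]
      linarith
  · refine ⟨x a - 1, Or.inr (Or.inr (Or.inl ⟨a, fun k => ?_⟩))⟩
    by_cases hka : k = a
    · subst hka
      rw [if_pos rfl]
      ring
    · have h2 := hb k a hka
      rw [h1, hA.be k a _ hka, if_neg (Ne.symm hka), if_pos rfl] at h2
      have h4 : x k - x a = -1 := canc (by rw [← h2]; ring)
      rw [if_neg hka]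
      linarith
  · refine ⟨x a + 1, Or.inr (Or.inr (Or.inr ⟨a, fun k => ?_⟩))⟩
    by_cases hka : k = a
    · subst hka
      rw [if_pos rfl]
      ring
    · have h2 := hb k a hka
      rw [h1, map_neg, hA.be k a _ hka, if_neg (Ne.symm hka), if_pos rfl] at h2
      have h4 : x k - x a = 1 := canc (by rw [← h2]; ring)
      rw [if_neg hka]
      linarith
  · exfalso
    rw [h1] at hμ
    exact hv h3 i j hij hμ

end Vale.Agent.P280.H641
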